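import Vale.Agent.P275PL.Main
import Vale.Agent.P275DL.La
import Vale.Agent.P275PG.Blk

/-!
# P275, block PL: the delta inequality with loops which are trivial near the pole
-/

set_option linter.unusedSectionVars false

open scoped Topology
open Set Filter Metric

noncomputable section

namespace Vale.Agent.P275PL

open Vale.Agent.P275DL Vale.Agent.P275GC Vale.Agent.P275GC.At
open Vale.Agent.P275PG (Tx DELTAP)

theorem Cp.tx {C : Type} [TopologicalSpace C] [T2Space C] [ConnectedSpace C] {A : At C} {p : C}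
    {f : C → ℂ} {S : Type} {X : Cov S} {ι : S → C} {V : Type} [AddCommGroup V] [Module ℂ V] {n : ℕ}
    {D : Sys A V n} {D' : SD X V n} {v : V} {S' : Type} {Y : Cov S'} {w : Wt Y S n} {y : S' → ℂ}
    (H : Cp p f ι D D' v Y w y) (F : w.Lp) : Tx p (H.loop F) := by
  obtain ⟨K, k1, -, k3⟩ := F.2.1.2.2
  have a : ∀ i, p ∈ (A.e i).source → ∀ᶠ u in 𝓝 (A.e i p), ∀ q,
      ι (w.ρ q) = (A.e i).symm u → Y.ψ q ∉ K := fun i h =>
    ((contAt_symm (map_src h)).eventually (H.md.mf.off k1 (Or.inl ((A.e i).left_inv h)))).mono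
      fun u b q e => by rw [← H.val, e]; exact b (e ▸ H.md.ne _)
  refine ⟨fun i h => (a i h).mono fun u c => funext fun η => ?_,
    fun i h => (a i h).mono fun u c => funext fun η => ?_,
    fun i h => (a i h).mono fun u c => funext fun η => ?_⟩
  · exact sel_ind (· = 1) rfl fun q e => k3 q (c q e.1)
  · exact mul_eq_zero_of_right _ (sel_ind (· = 0) rfl fun q e => by
      rw [(Cov.dz_off k1.isClosed k3 (c q e.1)).1, zero_div])
  · exact mul_eq_zero_of_right _ (sel_ind (· = 0) rfl fun q e => by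
      rw [(Cov.dz_off k1.isClosed k3 (c q e.1)).2, zero_div])

theorem deltap_of (h1 : RANK) (h2 : GENS) (h3 : FORM) (h4 : ZDIM) : DELTAP := by
  intro C _ _ _ A p V _ _ _ n D hn ⟨f, m1, m2⟩ t
  let e := (Module.finBasis ℂ V).equivFun
  let : NormedAddCommGroup V := NormedAddCommGroup.induced V _ e e.injective
  let : NormedSpace ℂ V := NormedSpace.induced ℂ V _ e
  obtain ⟨S, X, ι, H⟩ := Mf.exists_md (A := A) ⟨m1, m2⟩
  obtain ⟨D', hD⟩ := H.exists_sd D hn
  obtain ⟨Z, z1, z2⟩ := h4 V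
      {v | ¬Rk (fun L L' : {L : Loop A (D.P v) // Tx p L} => L.1.Q L'.1) t} t fun Y _ hY => by
    obtain ⟨G, g1, g2⟩ := h2 S V X n D' Y hY
    refine ⟨G, g1, fun d φ a1 a2 a3 a4 a5 => ?_⟩
    obtain ⟨q, δ, N, hq⟩ := g2 d φ a1 a2 a3
    obtain ⟨S', Y', w, y, u, b1, b2⟩ := h3 S V X n D' d φ q δ N hn a1 a4 hq
    have c : Cp p f ι D D' (φ 0) Y' w y := ⟨H, fun k hk => hD k hk _, b1⟩
    have r := (h1 S' S Y' n w _ u b2).map
      (Q' := fun L L' : {L : Loop A (D.P (φ 0)) // Tx p L} => L.1.Q L'.1)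
      (fun F => ⟨c.loop F, c.tx F⟩) c.loop_Q
    rw [Module.finrank_fin_fun] at r
    exact not_le.1 fun h => a5 (r.mono h)
  exact ⟨Z, z1, fun v hv => not_not.1 fun h => hv (z2 h)⟩

end Vale.Agent.P275PL
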