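import Vale.Agent.P275PL.Area

/-!
# P275, block PL: loops on the plane model give loops on the curve
-/

set_option linter.unusedSectionVars false

open scoped Topology ComplexConjugate ContDiff Polynomial
open Set Filter Metric Bornology MeasureTheory Complex

noncomputable section

namespace Vale.Agent.P275PL

open Vale.Agent.P275DL Vale.Agent.P275GC Vale.Agent.P275GC.At
open Vale.Agent.P281Z.Hm (wd wb wd_congr wb_congr)

open Classical in
/-- the value at the point selected by a predicate -/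
def sel {T : Type} (P : T → Prop) (G : T → ℂ) (d : ℂ) : ℂ := if h : ∃ q, P q then G h.choose else d

theorem sel_eq {T : Type} {P : T → Prop} {G : T → ℂ} {d : ℂ} {q : T} (hq : P q)
    (hu : ∀ r, P r → r = q) : sel P G d = G q := by
  rw [sel, dif_pos ⟨q, hq⟩, hu _ (Exists.choose_spec ⟨q, hq⟩)]

theorem sel_ind {T : Type} {P : T → Prop} {G : T → ℂ} {d : ℂ} (Q : ℂ → Prop) (hd : Q d)
    (h : ∀ q, P q → Q (G q)) : Q (sel P G d) := by
  by_cases e : ∃ q, P q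
  · rw [sel, dif_pos e]; exact h _ e.choose_spec
  · rwa [sel, dif_neg e]

variable {C : Type} [TopologicalSpace C] [T2Space C] [ConnectedSpace C] {A : At C} {p : C}
  {f : C → ℂ} {i j : Fin A.N} {z : ℂ} {x : C} {S : Type} {X : Cov S} {ι : S → C} {s : S}
  {V : Type} [AddCommGroup V] [Module ℂ V] {n : ℕ} {D : Sys A V n} {D' : SD X V n} {v : V}
  {S' : Type} {Y : Cov S'} {w : Wt Y S n} {y : S' → ℂ} {q : S'}

open Classical in
theorem mem_cl {t : ℂ} : q ∈ w.cl t s ↔ Y.ψ q = t ∧ w.ρ q = s := by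
  rw [Wt.cl, Finset.mem_filter, Y.mem]

open Classical in
theorem sum_cl (hs : D'.Spec v Y w y) (G : S' → ℂ) (t : ℂ) :
    ∑ s ∈ X.fib t, ∑ q ∈ w.cl t s, G q = ∑ q ∈ Y.fib t, G q :=
  Finset.sum_fiberwise_of_maps_to (fun q hq => (X.mem _ _).2 ((hs.ψ q).trans (Cov.ψ_of hq))) G

theorem cl_ev (hs : D'.Spec v Y w y) (h : X.ψ s ∉ Y.Z) : ∀ᶠ t in 𝓝 (X.ψ s), t ∉ Y.Z ∧
    X.ψ (X.σ s t) = t ∧
    (∀ q ∈ w.cl (X.ψ s) s, w.ρ (Y.σ q t) = X.σ s t ∧ w.m (Y.σ q t) = w.m q) ∧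
    BijOn (fun q => Y.σ q t) (w.cl (X.ψ s) s) (w.cl t (X.σ s t)) := by
  have a : ∀ᶠ t in 𝓝 (X.ψ s), ∀ q ∈ Y.fib (X.ψ s),
      w.ρ (Y.σ q t) = X.σ (w.ρ q) t ∧ w.m (Y.σ q t) = w.m q :=
    (Finset.eventually_all _).2 fun q hq => Cov.ψ_of hq ▸ (hs.σ q).and (w.lc q)
  filter_upwards [a, ev_notMem _ h, X.sec s, X.bij _ (X.nz s), Y.bij _ h] with t a b c d e
  have k : ∀ q ∈ w.cl (X.ψ s) s, q ∈ Y.fib (X.ψ s) := fun q hq => (Y.mem _ _).2 (mem_cl.1 hq).1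
  have l : ∀ q ∈ w.cl (X.ψ s) s, w.ρ (Y.σ q t) = X.σ s t := fun q hq => by
    rw [(a q (k q hq)).1, (mem_cl.1 hq).2]
  refine ⟨b, c.1, fun q hq => ⟨l q hq, (a q (k q hq)).2⟩, fun q hq => mem_cl.2
    ⟨Cov.ψ_of (e.mapsTo (k q hq)), l q hq⟩, e.injOn.mono k, fun r hr => ?_⟩
  obtain ⟨q, hq, rfl⟩ := e.surjOn ((Y.mem _ _).2 (mem_cl.1 hr).1)
  refine ⟨q, mem_cl.2 ⟨Cov.ψ_of hq, d.injOn ((X.mem _ _).2 ((hs.ψ q).trans (Cov.ψ_of hq)))
    (X.mem_self s) ((a q hq).1.symm.trans (mem_cl.1 hr).2)⟩, rfl⟩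

/-- functions on the spectral cover in the charts -/
def pu (A : At C) (f : C → ℂ) (r : S' → C) (y G : S' → ℂ) (d : ℂ) (i : Fin A.N) (z η : ℂ) : ℂ :=
  sel (fun q => r q = (A.e i).symm z ∧ fd A f i z * y q = η) G d

theorem pu_tr (r : S' → C) (G : S' → ℂ) (d : ℂ) (h : z ∈ A.O i j) (η : ℂ) :
    pu A f r y G d i z (A.d i j z * η) = pu A f r y G d j (A.tr i j z) η := by
  simp only [pu, symm_tr h, fd_tr h, mul_assoc, mul_right_inj' (d_ne h)]

/-- the data of the comparison -/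
structure Cp (p : C) (f : C → ℂ) (ι : S → C) (D : Sys A V n) (D' : SD X V n) (v : V) (Y : Cov S')
    (w : Wt Y S n) (y : S' → ℂ) : Prop where
  md : Md A p f X ι
  hc : ∀ k < n, ∀ s i, ι s ∈ (A.e i).source →
    D'.c k v s = D.c k v i (A.e i (ι s)) / fd A f i (A.e i (ι s)) ^ (n - k)
  sp : D'.Spec v Y w y

namespace Cp

theorem nz (H : Cp p f ι D D' v Y w y) (h : z ∈ ball (0 : ℂ) A.R) (e : ι s = (A.e i).symm z) :
    fd A f i z ≠ 0 := (Md.at_symm h e).2 ▸ H.md.nz s i (Md.at_symm h e).1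

theorem pu_eq (H : Cp p f ι D D' v Y w y) (G : S' → ℂ) (d : ℂ) (h : z ∈ ball (0 : ℂ) A.R)
    (e : ι (w.ρ q) = (A.e i).symm z) :
    pu A f (fun q => ι (w.ρ q)) y G d i z (fd A f i z * y q) = G q :=
  sel_eq ⟨e, rfl⟩ fun r a => H.sp.inj r q (H.md.inj (a.1.trans e.symm))
    (mul_left_cancel₀ (H.nz h e) a.2)

theorem P_eq (H : Cp p f ι D D' v Y w y) (h : z ∈ ball (0 : ℂ) A.R) (e : ι s = (A.e i).symm z)
    (hZ : X.ψ s ∉ Y.Z) : D.P v i z = ∏ q ∈ w.cl (X.ψ s) s,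
      (Polynomial.X - Polynomial.C (fd A f i z * y q)) ^ w.m q :=
  mon_scale (H.nz h e) (fun k hk => by
    rw [H.hc k hk s i (Md.at_symm h e).1, (Md.at_symm h e).2]) (H.sp.eq s hZ)

theorem val (H : Cp p f ι D D' v Y w y) (q : S') : f (ι (w.ρ q)) = Y.ψ q := by
  rw [← H.md.ψ, H.sp.ψ]

theorem good_or (H : Cp p f ι D D' v Y w y) (x : C) :
    (∃ s, ι s = x ∧ X.ψ s ∉ Y.Z) ∨ ((x = p ∨ f x ∈ Y.Z) ∧ ∀ q, ι (w.ρ q) ≠ x) := by
  by_cases e : x = p ∨ f x ∈ Y.Z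
  · refine Or.inr ⟨e, fun q a => e.elim (fun b => H.md.ne _ (a.trans b)) fun b => Y.nz q ?_⟩
    rwa [← H.val, a]
  rw [not_or] at e
  obtain ⟨s, rfl⟩ := (H.md.rng x).2 ⟨e.1, fun a => e.2 (H.sp.sub a)⟩
  exact Or.inl ⟨s, rfl, H.md.ψ s ▸ e.2⟩

theorem tend (H : Cp p f ι D D' v Y w y) (h : z ∈ ball (0 : ℂ) A.R) (e : ι s = (A.e i).symm z) :
    AnalyticAt ℂ (A.pl f i) z ∧ A.pl f i z = X.ψ s ∧
      ∀ᶠ u in 𝓝 z, ι (X.σ s (A.pl f i u)) = (A.e i).symm u := by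
  obtain ⟨a, rfl⟩ := Md.at_symm h e
  exact ⟨H.md.an a, H.md.val a, H.md.ev a⟩

/-- the loop on the curve -/
def loop (H : Cp p f ι D D' v Y w y) (F : w.Lp) : Loop A (D.P v) where
  F := pu A f (fun q => ι (w.ρ q)) y F.1 1
  a i z η := fd A f i z * pu A f (fun q => ι (w.ρ q)) y (fun q => Y.dz F.1 q / F.1 q) 0 i z η
  b i z η := conj (fd A f i z) *
    pu A f (fun q => ι (w.ρ q)) y (fun q => Y.db F.1 q / F.1 q) 0 i z η
  ne i z η := sel_ind (· ≠ 0) one_ne_zero fun q _ => F.2.1.2.1 q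
  tr i j z h η := pu_tr _ _ _ h η
  det i z h := by
    obtain ⟨s, a, b⟩ | ⟨-, a⟩ := H.good_or ((A.e i).symm z)
    · rw [H.P_eq h a b, roots_map_prod]
      exact (Finset.prod_congr rfl fun q hq => by
        rw [H.pu_eq _ _ h ((mem_cl.1 hq).2 ▸ a)]).trans (F.2.2 (X.ψ s) s)
    · refine Multiset.prod_eq_one fun _ hr => ?_
      obtain ⟨η, -, rfl⟩ := Multiset.mem_map.1 hr
      exact sel_ind (· = 1) rfl fun q b => (a q b.1).elim
  loc i z h := by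
    obtain ⟨s, a, b⟩ | ⟨a, -⟩ := H.good_or ((A.e i).symm z)
    · obtain ⟨c1, c2, c3⟩ := H.tend h a
      have c4 : Tendsto (A.pl f i) (𝓝 z) (𝓝 (X.ψ s)) := c2 ▸ c1.continuousAt.tendsto
      have c5 := c4.eventually (cl_ev H.sp b)
      let E := (w.cl (X.ψ s) s).equivFin.symm
      have c6 : ∀ j, Y.ψ (E j) = X.ψ s := fun j => (mem_cl.1 (E j).2).1
      refine Or.inr ⟨_, fun j u => fd A f i u * y (Y.σ (E j) (A.pl f i u)), fun j => w.m (E j),
        ⟨fun j => ⟨c1.deriv.mul ((H.sp.hl (E j)).comp_of_eq c1 (c2.trans (c6 j).symm)), w.pos _⟩,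
          fun j k e => ?_, ?_⟩, fun j => ?_⟩
      · have e' := mul_left_cancel₀ (H.nz h a) e
        have e1 : ∀ j, Y.σ (E j) (A.pl f i z) = E j := fun j =>
          (congrArg _ (c2.trans (c6 j).symm)).trans (Y.self _)
        rw [e1, e1] at e'
        exact E.injective (Subtype.ext (H.sp.inj _ _ ((mem_cl.1 (E j).2).2.trans
          (mem_cl.1 (E k).2).2.symm) e'))
      · filter_upwards [c3, c5, isOpen_ball.mem_nhds h] with u d1 d2 d3
        rw [H.P_eq d3 d1 (by rw [d2.2.1]; exact d2.1), d2.2.1, ← Finset.prod_nbij _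
          d2.2.2.2.mapsTo d2.2.2.2.injOn d2.2.2.2.surjOn fun _ _ => rfl, ← Finset.prod_coe_sort,
          ← E.prod_comp]
        exact Finset.prod_congr rfl fun j _ => by rw [(d2.2.2.1 _ (E j).2).2]
      have c7 : ∀ᶠ u in 𝓝 z, ∀ G d, pu A f (fun q => ι (w.ρ q)) y G d i u
          (fd A f i u * y (Y.σ (E j) (A.pl f i u))) = G (Y.σ (E j) (A.pl f i u)) := by
        filter_upwards [c3, c5, isOpen_ball.mem_nhds h] with u d1 d2 d3 G d
        exact H.pu_eq G d d3 (by rw [(d2.2.2.1 _ (E j).2).1, d1])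
      rw [← c6 j] at c4
      filter_upwards [c7.eventually_nhds, c1.eventually_analyticAt,
        c4.eventually (F.2.1.1.ev (E j)), c4.eventually (Y.dz_ev (E j))] with u d1 d2 d3 d4
      have d5 : (fun x => pu A f (fun q => ι (w.ρ q)) y F.1 1 i x
          (fd A f i x * y (Y.σ (E j) (A.pl f i x)))) =ᶠ[𝓝 u]
          fun x => F.1 (Y.σ (E j) (A.pl f i x)) := d1.mono fun _ g => g _ _
      have d6 := F.2.1.2.1 (Y.σ (E j) (A.pl f i u))
      refine ⟨(d3.comp u (an_cd d2)).congr_of_eventuallyEq d5, ?_, ?_⟩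
      · rw [wd_congr d5, d1.self_of_nhds, d1.self_of_nhds, (d4 _).1]
        refine (dz_comp (cd_df d3) d2.differentiableAt).trans ?_
        rw [smul_eq_mul, mul_left_comm, mul_div_cancel₀ _ d6, fd]
      · rw [wb_congr d5, d1.self_of_nhds, d1.self_of_nhds, (d4 _).2]
        refine (db_comp (cd_df d3) d2.differentiableAt).trans ?_
        rw [smul_eq_mul, mul_left_comm, mul_div_cancel₀ _ d6, fd]
    obtain ⟨K, k1, k2, k3⟩ := F.2.1.2.2
    refine Or.inl (((contAt_symm h).eventually (H.md.mf.off k1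
      (a.imp id fun b c => k2 _ c b))).mono fun u b η => ?_)
    have c : ∀ q, ι (w.ρ q) = (A.e i).symm u → Y.ψ q ∉ K := fun q e => by
      rw [← H.val, e]; exact b (e ▸ H.md.ne _)
    exact ⟨sel_ind (· = 1) rfl fun q e => k3 q (c q e.1),
      mul_eq_zero_of_right _ (sel_ind (· = 0) rfl fun q e => by
        rw [(Cov.dz_off k1.isClosed k3 (c q e.1)).1, zero_div]),
      mul_eq_zero_of_right _ (sel_ind (· = 0) rfl fun q e => by
        rw [(Cov.dz_off k1.isClosed k3 (c q e.1)).2, zero_div])⟩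

theorem int_eq (H : Cp p f ι D D' v Y w y) {G : S' → ℂ} (h1 : Y.Sm G) (h2 : Y.Cs G 0) :
    A.int (fun i z => normSq (fd A f i z) • Function.extend ι
      (fun s => ∑ q ∈ w.cl (X.ψ s) s, G q) 0 ((A.e i).symm z)) = Y.int G := by
  obtain ⟨K, k1, k2, k3⟩ := h2
  rw [H.md.area k1 (fun t a b => k2 t a (H.sp.sub b)) (fun s a => Finset.sum_eq_zero fun q hq =>
    k3 q ((mem_cl.1 hq).1 ▸ a)) fun s a => ?_]
  · refine integral_congr_ae (Eventually.of_forall fun t => ?_)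
    beta_reduce
    rw [Finset.sum_congr rfl fun s hs => by rw [Cov.ψ_of hs]]
    exact sum_cl H.sp G t
  have : ContinuousAt (fun t => ∑ q ∈ w.cl (X.ψ s) s, G (Y.σ q t)) (X.ψ s) :=
    (ContDiffAt.sum fun q hq => (mem_cl.1 hq).1 ▸ h1 q).continuousAt
  refine this.congr ((cl_ev H.sp (k2 _ a)).mono fun t d => ?_)
  beta_reduce
  rw [d.2.1]
  exact Finset.sum_nbij _ d.2.2.2.mapsTo d.2.2.2.injOn d.2.2.2.surjOn fun _ _ => rfl

theorem loop_Q (H : Cp p f ι D D' v Y w y) (F G : w.Lp) : (H.loop F).Q (H.loop G) = w.Q F G := by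
  obtain ⟨⟨f1, f2, f3⟩, -⟩ := F.2
  obtain ⟨⟨g1, g2, -⟩, -⟩ := G.2
  rw [Wt.Q, ← H.int_eq ((Cov.sm_lc fun q => (w.lc q).mono fun _ a => congrArg Nat.cast a).mul
    (((f1.dz.div f1 f2).mul (g1.db.div g1 g2)).sub ((f1.db.div f1 f2).mul (g1.dz.div g1 g2))))
    (f3.dz.op f3.db (fun q a b => w.m q * (a / F.1 q * (Y.db G.1 q / G.1 q) -
      b / F.1 q * (Y.dz G.1 q / G.1 q))) fun q => by simp)]
  refine int_congr' fun i z h => ?_
  obtain ⟨s, a, b⟩ | ⟨-, a⟩ := H.good_or ((A.e i).symm z)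
  · rw [H.P_eq h a b, roots_map_sum, ← a, H.md.inj.extend_apply, Finset.smul_sum]
    refine Finset.sum_congr rfl fun q hq => ?_
    simp only [loop, H.pu_eq _ _ h ((mem_cl.1 hq).2 ▸ a), real_smul, ← mul_conj]
    ring
  have c : ∀ G η, pu A f (fun q => ι (w.ρ q)) y G 0 i z η = 0 := fun G η =>
    sel_ind (· = 0) rfl fun q b => (a q b.1).elim
  simp only [loop, c, mul_zero, sub_self, Multiset.map_const', Multiset.sum_replicate, smul_zero]
  by_cases e : ∃ s, ι s = (A.e i).symm z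
  · obtain ⟨s, e⟩ := e
    rw [← e, H.md.inj.extend_apply, Finset.sum_eq_zero fun q hq =>
      (a q ((mem_cl.1 hq).2 ▸ e)).elim, smul_zero]
  · rw [Function.extend_apply' _ _ _ e, Pi.zero_apply, smul_zero]

end Cp

/-- **Passage from the curve to the plane and back.** -/
theorem plt : PLT := by
  intro C _ _ _ A V _ _ n D hn ⟨p, f, h1, h2⟩
  obtain ⟨S, X, ι, H⟩ := Mf.exists_md (A := A) ⟨h1, h2⟩
  obtain ⟨D', e⟩ := H.exists_sd D hn
  exact ⟨S, X, D', fun v S' Y w y hs => ⟨Cp.loop ⟨H, fun k hk => e k hk v, hs⟩, Cp.loop_Q _⟩⟩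

end Vale.Agent.P275PL
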