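import Vale.Agent.P275PL.Sd

/-!
# P275, block PL: the area formula
-/

set_option linter.unusedSectionVars false

open scoped Topology
open Set Filter Metric Bornology MeasureTheory Complex

noncomputable section

namespace Vale.Agent.P275PL

open Vale.Agent.P275DL Vale.Agent.P275GC Vale.Agent.P275GC.At

variable {C : Type} [TopologicalSpace C] [T2Space C] [ConnectedSpace C] {A : At C} {p : C}
  {f : C → ℂ} {i j : Fin A.N} {z : ℂ} {x : C} {S : Type} {X : Cov S} {ι : S → C} {s : S}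

namespace Md

theorem at_symm (h : z ∈ ball (0 : ℂ) A.R) (e : ι s = (A.e i).symm z) :
    ι s ∈ (A.e i).source ∧ A.e i (ι s) = z := e ▸ ⟨map_tgt h, rinv h⟩

theorem piece (H : Md A p f X ι) (G : ℂ → ℂ) {T : Set ℂ} (hT : MeasurableSet T)
    (h1 : ∀ z ∈ T, z ∈ ball (0 : ℂ) A.R ∧ (A.e i).symm z ∈ range ι) (h2 : InjOn (A.pl f i) T)
    (h3 : IntegrableOn (fun z => normSq (fd A f i z) • G z) T) :
    Integrable (fun t => ∑ s ∈ X.fib t, A.ext i (T.indicator G) (ι s)) ∧
      ∫ t, ∑ s ∈ X.fib t, A.ext i (T.indicator G) (ι s) = ∫ z in T, normSq (fd A f i z) • G z := by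
  have d : ∀ z ∈ T, HasFDerivWithinAt (A.pl f i)
      ((ContinuousLinearMap.toSpanSingleton ℂ (fd A f i z)).restrictScalars ℝ) T z := fun z hz => by
    obtain ⟨a, s, b⟩ := h1 z hz
    exact ((H.mf.an i z a (b ▸ H.ne s)).differentiableAt.hasDerivAt.hasFDerivAt.restrictScalars
      ℝ).hasFDerivWithinAt
  have m := measurable_image_of_fderivWithin hT d h2
  have k : ∀ t, ∀ s ∈ X.fib t, A.ext i (T.indicator G) (ι s) ≠ 0 →
      ι s ∈ (A.e i).source ∧ A.e i (ι s) ∈ T ∧ A.pl f i (A.e i (ι s)) = t := fun t s hs a => by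
    have b : ι s ∈ (A.e i).source := by_contra fun b => a (ext_not b)
    rw [ext_src b] at a
    exact ⟨b, mem_of_indicator_ne_zero a, (H.val b).trans (Cov.ψ_of hs)⟩
  have e : (fun t => ∑ s ∈ X.fib t, A.ext i (T.indicator G) (ι s)) =
      (A.pl f i '' T).indicator fun t => G (Function.invFunOn (A.pl f i) T t) := funext fun t => by
    by_cases ht : t ∈ A.pl f i '' T
    · obtain ⟨z, hz, rfl⟩ := ht
      obtain ⟨a, s, b⟩ := h1 z hz
      obtain ⟨c1, c2⟩ := at_symm a b
      rw [indicator_of_mem (mem_image_of_mem _ hz), h2.leftInvOn_invFunOn hz,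
        Finset.sum_eq_single_of_mem s ((X.mem _ _).2 (by rw [← H.val c1, c2])), ext_src c1, c2,
        indicator_of_mem hz]
      refine fun r hr c => by_contra fun g => c (H.inj ?_)
      obtain ⟨g1, g2, g3⟩ := k _ r hr g
      rw [b, ← h2 g2 hz g3, (A.e i).left_inv g1]
    · rw [indicator_of_notMem ht]
      exact Finset.sum_eq_zero fun s hs => by_contra fun g => ht ⟨_, (k t s hs g).2⟩
  have q : EqOn (fun z => |((ContinuousLinearMap.toSpanSingleton ℂ (fd A f i z)).restrictScalars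
      ℝ).det| • G (Function.invFunOn (A.pl f i) T (A.pl f i z)))
      (fun z => normSq (fd A f i z) • G z) T := fun z hz => by
    beta_reduce
    rw [det_mul, abs_of_nonneg (normSq_nonneg _), h2.leftInvOn_invFunOn hz]
  rw [e, integrable_indicator_iff m, integral_indicator m,
    integrableOn_image_iff_integrableOn_abs_det_fderiv_smul volume hT d h2,
    integral_image_eq_integral_abs_det_fderiv_smul volume hT d h2]
  exact ⟨h3.congr_fun q.symm hT, setIntegral_congr_fun hT q⟩

theorem area_cpt (H : Md A p f X ι) (G : ℂ → ℂ) {K : Set ℂ} (hK : IsCompact K)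
    (h1 : ∀ z ∈ K, z ∈ ball (0 : ℂ) A.R ∧ (A.e i).symm z ∈ range ι)
    (h3 : IntegrableOn (fun z => normSq (fd A f i z) • G z) K) :
    Integrable (fun t => ∑ s ∈ X.fib t, A.ext i (K.indicator G) (ι s)) ∧
      ∫ t, ∑ s ∈ X.fib t, A.ext i (K.indicator G) (ι s) = ∫ z in K, normSq (fd A f i z) • G z := by
  obtain ⟨u, -, a, b⟩ : ∃ u, IsOpen u ∧ K ⊆ u ∧ ∀ T, MeasurableSet T → T ⊆ u → T ⊆ K →
      Integrable (fun t => ∑ s ∈ X.fib t, A.ext i (T.indicator G) (ι s)) ∧
      ∫ t, ∑ s ∈ X.fib t, A.ext i (T.indicator G) (ι s) = ∫ z in T, normSq (fd A f i z) • G z := by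
    refine hK.induction_on (p := fun k => ∃ u, IsOpen u ∧ k ⊆ u ∧ ∀ T, MeasurableSet T → T ⊆ u →
      T ⊆ K → Integrable (fun t => ∑ s ∈ X.fib t, A.ext i (T.indicator G) (ι s)) volume ∧
      ∫ t, ∑ s ∈ X.fib t, A.ext i (T.indicator G) (ι s) = ∫ z in T, normSq (fd A f i z) • G z)
      ⟨∅, isOpen_empty, Subset.rfl, fun T a b c => H.piece G a (fun z h => h1 z (c h))
        (injOn_empty _ |>.mono b) (h3.mono_set c)⟩
      (fun _ _ a ⟨u, b, c, d⟩ => ⟨u, b, a.trans c, d⟩) ?_ fun z hz => ?_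
    · rintro _ _ ⟨u, a, b, c⟩ ⟨v, a', b', c'⟩
      refine ⟨u ∪ v, a.union a', union_subset_union b b', fun T m h k => ?_⟩
      obtain ⟨d1, d2⟩ := c (T ∩ u) (m.inter a.measurableSet) inter_subset_right
        (inter_subset_left.trans k)
      obtain ⟨d3, d4⟩ := c' (T \ u) (m.diff a.measurableSet) (fun z g => (h g.1).resolve_left g.2)
        (sdiff_subset.trans k)
      have e : (fun t => ∑ s ∈ X.fib t, A.ext i (T.indicator G) (ι s)) = fun t =>
          ∑ s ∈ X.fib t, A.ext i ((T ∩ u).indicator G) (ι s) +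
          ∑ s ∈ X.fib t, A.ext i ((T \ u).indicator G) (ι s) := funext fun t => by
        rw [← Finset.sum_add_distrib]
        refine Finset.sum_congr rfl fun s _ => ?_
        by_cases g : ι s ∈ (A.e i).source
        · rw [ext_src g, ext_src g, ext_src g, ← indicator_union_of_notMem_inter fun g =>
            g.2.2 g.1.2, inter_union_sdiff]
        · rw [ext_not g, ext_not g, ext_not g, add_zero]
      rw [e, integral_add d1 d3, d2, d4, integral_inter_add_sdiff a.measurableSet (h3.mono_set k)]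
      exact ⟨d1.add d3, rfl⟩
    · obtain ⟨a, s, b⟩ := h1 z hz
      obtain ⟨c1, c2⟩ := at_symm a b
      have c := ((H.an c1).hasStrictDerivAt).hasStrictFDerivAt_equiv (H.nz s i c1)
      have d := c.mem_toOpenPartialHomeomorph_source
      refine ⟨_, nhdsWithin_le_nhds (c2 ▸ (c.toOpenPartialHomeomorph _).open_source.mem_nhds d),
        _, (c.toOpenPartialHomeomorph _).open_source, Subset.rfl, fun T a b k => H.piece G a
          (fun z h => h1 z (k h)) ((c.toOpenPartialHomeomorph _).injOn.mono b) (h3.mono_set k)⟩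
  exact b K hK.measurableSet a Subset.rfl

/-- **The area formula.** -/
theorem area (H : Md A p f X ι) {U : S → ℂ} {K : Set ℂ} (hK : IsCompact K) (hZ : ∀ t ∈ K, t ∉ X.Z)
    (h0 : ∀ s, X.ψ s ∉ K → U s = 0)
    (hU : ∀ s, X.ψ s ∈ K → ContinuousAt (fun t => U (X.σ s t)) (X.ψ s)) :
    A.int (fun i z => normSq (fd A f i z) • Function.extend ι U 0 ((A.e i).symm z)) = X.int U := by
  have z0 : ∀ y, ¬(y ≠ p ∧ f y ∈ K) → Function.extend ι U 0 y = 0 := fun y hy => by
    by_cases e : ∃ s, ι s = y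
    · obtain ⟨s, rfl⟩ := e
      rw [H.inj.extend_apply]
      exact h0 s fun a => hy ⟨H.ne s, H.ψ s ▸ a⟩
    · exact Function.extend_apply' _ _ _ e
  have cl : IsClosed {y | y ≠ p ∧ f y ∈ K} := ⟨isOpen_iff_mem_nhds.2 fun y hy =>
    (H.mf.off hK (by_contra fun a => hy (by simpa using a))).mono fun _ a b => a b.1 b.2⟩
  have key : ∀ i, Integrable (fun t => ∑ s ∈ X.fib t, A.ψ i (ι s) • U s) ∧
      ∫ t, ∑ s ∈ X.fib t, A.ψ i (ι s) • U s = ∫ z, A.χ i z • normSq (fd A f i z) •
        Function.extend ι U 0 ((A.e i).symm z) := fun i => by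
    have k : IsCompact (closedBall (0 : ℂ) 1 ∩ (A.e i).symm ⁻¹' {y | y ≠ p ∧ f y ∈ K}) :=
      (isCompact_closedBall 0 1).of_isClosed_subset (((cont_symm i).mono
        A.unit_sub).preimage_isClosed_of_isClosed isClosed_closedBall cl) inter_subset_left
    have g0 : ∀ z, z ∉ closedBall (0 : ℂ) 1 ∩ (A.e i).symm ⁻¹' {y | y ≠ p ∧ f y ∈ K} →
        A.χ i z • Function.extend ι U 0 ((A.e i).symm z) = 0 := fun z hz => by
      by_cases e : ‖z‖ ≤ 1
      · rw [z0 _ fun a => hz ⟨mem_closedBall_zero_iff.2 e, a⟩, smul_zero]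
      · rw [χ_zero (not_le.1 e).le, zero_smul]
    have h1 : ∀ z ∈ closedBall (0 : ℂ) 1 ∩ (A.e i).symm ⁻¹' {y | y ≠ p ∧ f y ∈ K},
        z ∈ ball (0 : ℂ) A.R ∧ (A.e i).symm z ∈ range ι := fun z hz =>
      ⟨A.unit_sub hz.1, (H.rng _).2 ⟨hz.2.1, hZ _ hz.2.2⟩⟩
    have := H.area_cpt (fun z => A.χ i z • Function.extend ι U 0 ((A.e i).symm z)) k h1
      (ContinuousOn.integrableOn_compact k fun z hz => ContinuousAt.continuousWithinAt ?_)
    · rw [indicator_eq_self.2 fun z hz => by_contra fun a => hz (g0 z a),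
        setIntegral_eq_integral_of_forall_compl_eq_zero fun z hz => by rw [g0 z hz, smul_zero]]
        at this
      have e : ∀ s, A.ext i (fun z => A.χ i z • Function.extend ι U 0 ((A.e i).symm z)) (ι s) =
          A.ψ i (ι s) • U s := fun s => by
        by_cases g : ι s ∈ (A.e i).source
        · rw [At.ψ, ext_src g, ext_src g, (A.e i).left_inv g, H.inj.extend_apply]
        · rw [At.ψ, ext_not g, ext_not g, zero_smul]
      simpa only [e, smul_comm (normSq _) (A.χ i _)] using this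
    obtain ⟨a, s, b⟩ := h1 z hz
    obtain ⟨c1, c2⟩ := at_symm a b
    have c3 : X.ψ s ∈ K := by rw [H.ψ, b]; exact hz.2.2
    rw [← c2]
    refine (continuous_normSq.continuousAt.comp (H.an c1).deriv.continuousAt).smul
      ((cd_χ i).continuous.continuousAt.smul ((ContinuousAt.comp (f := A.pl f i)
        (H.val c1 ▸ hU s c3) (H.an c1).continuousAt).congr ((H.ev c1).mono fun w a => ?_)))
    beta_reduce
    rw [← a, H.inj.extend_apply]
    rfl
  rw [At.int, Cov.int, ← Finset.sum_congr rfl fun i _ => (key i).2,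
    ← integral_finsetSum _ fun i _ => (key i).1]
  refine integral_congr_ae (Eventually.of_forall fun t => ?_)
  beta_reduce
  rw [Finset.sum_comm]
  simp only [← Finset.sum_smul, sum_ψ, one_smul]

end Md

end Vale.Agent.P275PL
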