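import Vale.Agent.P275DL.Bas
import Vale.Agent.P275GC.St
import Mathlib.Analysis.Calculus.InverseFunctionTheorem.Analytic
import Mathlib.Analysis.Complex.RemovableSingularity
import Mathlib.Analysis.Normed.Module.Connected

/-!
# P275, block PL: lemmas on the plane and on polynomials
-/

open scoped Topology Polynomial
open Set Filter Metric Bornology

noncomputable section

namespace Vale.Agent.P275PL

open Vale.Agent.P275DL

/-- the gradient inequality at a zero of a holomorphic function -/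
theorem loj {g : ℂ → ℂ} {z : ℂ} (hg : AnalyticAt ℂ g z) (h0 : g z = 0)
    (h1 : ¬∀ᶠ w in 𝓝 z, g w = 0) :
    ∀ᶠ q : ℝ × ℂ in 𝓝 0 ×ˢ 𝓝 z, ‖g q.2‖ ^ (1 - q.1) ≤ ‖deriv g q.2‖ := by
  obtain ⟨m, h, ha, hz, he⟩ := hg.exists_eventuallyEq_pow_smul_nonzero_iff.2 h1
  obtain rfl | ⟨k, rfl⟩ := Nat.eq_zero_or_eq_succ_pred m |>.imp id fun a => (⟨_, a⟩ : ∃ k, m = k + 1)
  · exact absurd (by simpa [h0] using he.self_of_nhds.symm) hz
  have hd : ∀ᶠ w in 𝓝 z, deriv g w =
      (w - z) ^ k * (((k : ℂ) + 1) * h w + (w - z) * deriv h w) := by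
    filter_upwards [he.eventually_nhds, ha.eventually_analyticAt] with w a b
    have := (((hasDerivAt_id w).sub_const z).fun_pow (k + 1)).mul b.differentiableAt.hasDerivAt
    rw [EventuallyEq.deriv_eq (f := fun x => (x - z) ^ (k + 1) * h x) a]
    refine this.deriv.trans ?_
    simp only [id, Nat.add_sub_cancel, Nat.cast_add, Nat.cast_one]
    ring
  have c1 : Tendsto (fun q : ℝ × ℂ => ‖q.2 - z‖ ^ (1 - (k + 1) * q.1) * ‖h q.2‖ ^ (1 - q.1))
      (𝓝 0 ×ˢ 𝓝 z) (𝓝 (‖z - z‖ ^ (1 - (k + 1) * (0 : ℝ)) * ‖h z‖ ^ (1 - (0 : ℝ)))) :=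
    (((tendsto_snd.sub_const z).norm).rpow (tendsto_const_nhds.sub (tendsto_fst.const_mul _))
      (Or.inr (by simp))).mul (((ha.continuousAt.tendsto.comp tendsto_snd).norm).rpow
      (tendsto_const_nhds.sub tendsto_fst) (Or.inr (by simp)))
  have c2 : Tendsto (fun q : ℝ × ℂ => ‖((k : ℂ) + 1) * h q.2 + (q.2 - z) * deriv h q.2‖)
      (𝓝 0 ×ˢ 𝓝 z) (𝓝 ‖((k : ℂ) + 1) * h z + (z - z) * deriv h z‖) :=
    ((((ha.continuousAt.tendsto.comp tendsto_snd).const_mul _).add ((tendsto_snd.sub_const z).mul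
      (ha.deriv.continuousAt.tendsto.comp tendsto_snd)))).norm
  have c3 := c1.eventually_lt c2 (by
    simp only [sub_self, norm_zero, mul_zero, sub_zero, Real.rpow_one, zero_mul, add_zero]
    exact norm_pos_iff.2 (mul_ne_zero (by exact_mod_cast k.succ_ne_zero) hz))
  have c4 : ∀ᶠ q : ℝ × ℂ in 𝓝 0 ×ˢ 𝓝 z, q.1 < 1 :=
    tendsto_fst.eventually (gt_mem_nhds zero_lt_one)
  filter_upwards [c3, c4, tendsto_snd.eventually hd, tendsto_snd.eventually he] with q a b c d
  by_cases e : q.2 = z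
  · rw [e, h0, norm_zero, Real.zero_rpow (by linarith)]
    exact norm_nonneg _
  have r : 0 < ‖q.2 - z‖ := norm_pos_iff.2 (sub_ne_zero.2 e)
  rw [c, d, smul_eq_mul, norm_mul, norm_mul, norm_pow, norm_pow,
    Real.mul_rpow (by positivity) (norm_nonneg _), ← Real.rpow_natCast, ← Real.rpow_mul r.le,
    show ((k + 1 : ℕ) : ℝ) * (1 - q.1) = (k : ℕ) + (1 - (k + 1) * q.1) by push_cast; ring,
    Real.rpow_add r, Real.rpow_natCast, mul_assoc]
  exact mul_le_mul_of_nonneg_left a.le (by positivity)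

theorem cpt_ev {α Y : Type} [TopologicalSpace Y] {K : Set Y} (hK : IsCompact K) {l : Filter α}
    {P : α → Y → Prop} (h : ∀ y ∈ K, ∀ᶠ q : α × Y in l ×ˢ 𝓝 y, P q.1 q.2) :
    ∀ᶠ a in l, ∀ y ∈ K, P a y :=
  (Eventually.curry (hK.mem_prod_nhdsSet_of_forall h)).mono fun _ a => a.self_of_nhdsSet

theorem ev_punct {z : ℂ} {P : ℂ → Prop} (h : ∀ᶠ w in 𝓝[≠] z, P w) :
    ∀ᶠ w in 𝓝 z, ∀ᶠ u in 𝓝[≠] w, P u := by
  filter_upwards [(eventually_nhdsWithin_iff.1 h).eventually_nhds] with w a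
  filter_upwards [nhdsWithin_le_nhds a, ev_notMem' {z} w] with u b c
  exact b (by simpa using c)

/-- behaviour at a pole -/
theorem pole {g : ℂ → ℂ} {z : ℂ} (ha : ∀ᶠ w in 𝓝[≠] z, AnalyticAt ℂ g w)
    (ht : Tendsto g (𝓝[≠] z) (cobounded ℂ)) :
    ∀ᶠ q : ℝ × ℂ in 𝓝 0 ×ˢ 𝓝[≠] z, g q.2 ≠ 0 ∧ ‖g q.2‖ ^ (1 + q.1) ≤ ‖deriv g q.2‖ := by
  classical
  have h0 : ∀ᶠ w in 𝓝[≠] z, g w ≠ 0 := ht.eventually (eventually_ne_cobounded 0)
  have e : ∀ w, w ≠ z → Function.update (fun w => (g w)⁻¹) z 0 =ᶠ[𝓝 w] fun w => (g w)⁻¹ :=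
    fun w hw => (eventually_ne_nhds hw).mono fun u a => Function.update_of_ne a _ _
  have h1 : AnalyticAt ℂ (Function.update (fun w => (g w)⁻¹) z 0) z := by
    refine Complex.analyticAt_of_differentiable_on_punctured_nhds_of_continuousAt ?_
      (continuousAt_update_same.2 (tendsto_inv₀_cobounded.comp ht))
    filter_upwards [ha, h0, self_mem_nhdsWithin] with w a b c
    exact (a.differentiableAt.inv b).congr_of_eventuallyEq (e w c)
  have h2 := loj h1 (Function.update_self _ _ _) fun a => by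
    obtain ⟨w, b, c, d⟩ := ((a.filter_mono (nhdsWithin_le_nhds (s := {z}ᶜ))).and
      (h0.and self_mem_nhdsWithin)).exists
    rw [Function.update_of_ne d] at b
    exact c (inv_eq_zero.1 b)
  filter_upwards [prod_mono le_rfl nhdsWithin_le_nhds h2, tendsto_snd.eventually ha,
    tendsto_snd.eventually h0, tendsto_snd.eventually self_mem_nhdsWithin] with q a b c d
  have r : 0 < ‖g q.2‖ := norm_pos_iff.2 c
  refine ⟨c, ?_⟩
  have a' : ‖Function.update (fun w => (g w)⁻¹) z 0 q.2‖ ^ (1 - q.1) ≤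
      ‖deriv (Function.update (fun w => (g w)⁻¹) z 0) q.2‖ := a
  rw [(e _ d).deriv_eq, Function.update_of_ne d, (b.differentiableAt.hasDerivAt.fun_inv c).deriv,
    norm_div, norm_neg, norm_pow, norm_inv, le_div_iff₀ (by positivity), Real.inv_rpow r.le,
    ← Real.rpow_neg r.le, ← Real.rpow_natCast, ← Real.rpow_add r] at a'
  rwa [show 1 + q.1 = -(1 - q.1) + (2 : ℕ) by push_cast; ring]

/-! ### polynomials -/

theorem roots_prod {ι : Type} (s : Finset ι) (r : ι → ℂ) (m : ι → ℕ) :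
    (∏ q ∈ s, (Polynomial.X - Polynomial.C (r q)) ^ m q).roots = ∑ q ∈ s, m q • {r q} := by
  classical
  induction s using Finset.induction_on with
  | empty => simp
  | insert a s ha ih =>
    rw [Finset.prod_insert ha, Finset.sum_insert ha, Polynomial.roots_mul (mul_ne_zero
      (pow_ne_zero _ (Polynomial.X_sub_C_ne_zero _)) (Finset.prod_ne_zero_iff.2 fun _ _ =>
        pow_ne_zero _ (Polynomial.X_sub_C_ne_zero _))), ih, Polynomial.roots_pow,
      Polynomial.roots_X_sub_C]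

theorem roots_map_prod {ι : Type} (s : Finset ι) (r : ι → ℂ) (m : ι → ℕ) (G : ℂ → ℂ) :
    ((∏ q ∈ s, (Polynomial.X - Polynomial.C (r q)) ^ m q).roots.map G).prod =
      ∏ q ∈ s, G (r q) ^ m q := by
  rw [roots_prod, ← Multiset.coe_mapAddMonoidHom, map_sum, Multiset.prod_sum]
  simp [Multiset.map_nsmul, Multiset.prod_nsmul]

theorem roots_map_sum {ι : Type} (s : Finset ι) (r : ι → ℂ) (m : ι → ℕ) (G : ℂ → ℂ) :
    ((∏ q ∈ s, (Polynomial.X - Polynomial.C (r q)) ^ m q).roots.map G).sum =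
      ∑ q ∈ s, m q * G (r q) := by
  rw [roots_prod, ← Multiset.coe_mapAddMonoidHom, map_sum, Multiset.sum_sum]
  simp [Multiset.map_nsmul, Multiset.sum_nsmul]

theorem natDegree_mon (n : ℕ) (c : ℕ → ℂ) : (mon n c).natDegree = n := by
  rw [mon, Polynomial.natDegree_add_eq_left_of_degree_lt, Polynomial.natDegree_X_pow]
  rw [Polynomial.degree_X_pow]
  refine (Polynomial.degree_sum_le _ _).trans_lt ((Finset.sup_lt_iff (WithBot.bot_lt_coe n)).2
    fun k hk => (Polynomial.degree_C_mul_X_pow_le _ _).trans_lt ?_)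
  exact WithBot.coe_lt_coe.2 (Finset.mem_range.1 hk)

theorem mon_scale {ι : Type} {s : Finset ι} {r : ι → ℂ} {m : ι → ℕ} {n : ℕ} {c c' : ℕ → ℂ}
    {a : ℂ} (ha : a ≠ 0) (hc : ∀ k < n, c' k = c k / a ^ (n - k))
    (h : mon n c' = ∏ q ∈ s, (Polynomial.X - Polynomial.C (r q)) ^ m q) :
    mon n c = ∏ q ∈ s, (Polynomial.X - Polynomial.C (a * r q)) ^ m q := by
  have hn : ∑ q ∈ s, m q = n := by
    rw [← natDegree_mon n c', h, Polynomial.natDegree_prod _ _ fun _ _ =>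
      pow_ne_zero _ (Polynomial.X_sub_C_ne_zero _)]
    simp
  refine Polynomial.funext fun x => ?_
  obtain ⟨y, rfl⟩ : ∃ y, x = a * y := ⟨x / a, by field_simp⟩
  have := congrArg (Polynomial.eval y) h
  simp only [mon, Polynomial.eval_add, Polynomial.eval_pow, Polynomial.eval_X,
    Polynomial.eval_finsetSum, Polynomial.eval_mul, Polynomial.eval_C, Polynomial.eval_prod,
    Polynomial.eval_sub] at this ⊢
  simp only [← mul_sub, mul_pow, Finset.prod_mul_distrib, Finset.prod_pow_eq_pow_sum, hn, ← this,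
    mul_add, Finset.mul_sum]
  refine congrArg _ (Finset.sum_congr rfl fun k hk => ?_)
  have hk' := Finset.mem_range.1 hk
  rw [hc k hk', ← pow_sub_mul_pow a hk'.le]
  field_simp

end Vale.Agent.P275PL
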