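import Vale.Agent.P275PL.Loj

/-!
# P275, block PL: the cover of the plane defined by a function with one pole
-/

set_option linter.unusedSectionVars false

open scoped Topology Polynomial
open Set Filter Metric Bornology

noncomputable section

namespace Vale.Agent.P275PL

open Vale.Agent.P275DL Vale.Agent.P275GC Vale.Agent.P275GC.At

variable {C : Type} [TopologicalSpace C] {A : At C} {p : C} {f : C → ℂ} {i j : Fin A.N} {z : ℂ}
  {x : C}

/-- the differential of a function in the charts -/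
def fd (A : At C) (f : C → ℂ) (i : Fin A.N) : ℂ → ℂ := deriv (A.pl f i)

theorem fd_tr (h : z ∈ A.O i j) : fd A f i z = A.d i j z * fd A f j (A.tr i j z) := by
  have e : A.pl f i =ᶠ[𝓝 z] A.pl f j ∘ A.tr i j := (fn_pl f).ev h
  by_cases hd : DifferentiableAt ℂ (A.pl f j) (A.tr i j z)
  · rw [fd, e.deriv_eq, (hd.hasDerivAt.comp z (has_tr h)).deriv, mul_comm, fd]
  · have hd' : ¬DifferentiableAt ℂ (A.pl f i) z := fun a => hd
      ((DifferentiableAt.comp (g := A.pl f i) _ ((tr_inv h).symm ▸ a)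
        (df_tr (tr_mem h))).congr_of_eventuallyEq ((fn_pl f).ev (tr_mem h)))
    rw [fd, fd, deriv_zero_of_not_differentiableAt hd, deriv_zero_of_not_differentiableAt hd',
      mul_zero]

theorem tend_symm (h : z ∈ ball (0 : ℂ) A.R) :
    Tendsto (A.e i).symm (𝓝[≠] z) (𝓝[≠] ((A.e i).symm z)) :=
  tendsto_nhdsWithin_iff.2 ⟨(contAt_symm h).tendsto.mono_left nhdsWithin_le_nhds,
    (A.e i).symm.eventually_ne_nhdsWithin (mem_tgt.2 h)⟩

theorem tend_e (h : x ∈ (A.e i).source) : Tendsto (A.e i) (𝓝[≠] x) (𝓝[≠] (A.e i x)) :=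
  tendsto_nhdsWithin_iff.2 ⟨((A.e i).continuousAt h).tendsto.mono_left nhdsWithin_le_nhds,
    (A.e i).eventually_ne_nhdsWithin h⟩

theorem tend_tr (h : z ∈ A.O i j) : Tendsto (A.tr i j) (𝓝[≠] z) (𝓝[≠] (A.tr i j z)) :=
  (tend_e h.2).comp (tend_symm h.1)

/-- a set without accumulation point is finite -/
theorem finite_of {T : Set C} (h : ∀ i, ∀ z ∈ ball (0 : ℂ) A.R, ∀ᶠ w in 𝓝[≠] z,
    w ∈ ball (0 : ℂ) A.R → (A.e i).symm w ∉ T) : T.Finite := by
  have := A.compactSpace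
  have a : ∀ x : C, ∀ᶠ y in 𝓝 x, y ≠ x → y ∉ T := fun x => by
    obtain ⟨i, hi, -⟩ := A.cov x
    refine eventually_nhdsWithin_iff.1 ?_
    filter_upwards [(tend_e hi).eventually (h i _ (map_src hi)),
      nhdsWithin_le_nhds ((A.e i).open_source.mem_nhds hi)] with y b c
    exact (A.e i).left_inv c ▸ b (map_src c)
  obtain ⟨t, -, ht⟩ := isCompact_univ.elim_nhds_subcover (fun x => {y | y ≠ x → y ∉ T})
    fun x _ => a x
  refine t.finite_toSet.subset fun y hy => ?_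
  obtain ⟨x, b, c⟩ := mem_iUnion₂.1 (ht (mem_univ y))
  exact (by_contra fun d => c d hy : y = x) ▸ b

/-- a holomorphic function with one pole -/
structure Mf (A : At C) (p : C) (f : C → ℂ) : Prop where
  an : ∀ i, ∀ z ∈ ball (0 : ℂ) A.R, (A.e i).symm z ≠ p → AnalyticAt ℂ (A.pl f i) z
  tend : Tendsto f (𝓝[≠] p) (cobounded ℂ)

namespace Mf

theorem cont (H : Mf A p f) (hx : x ≠ p) : ContinuousAt f x := by
  obtain ⟨i, a, -⟩ := A.cov x
  refine ((H.an i _ (map_src a) (by rwa [(A.e i).left_inv a])).continuousAt.comp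
    ((A.e i).continuousAt a)).congr ?_
  filter_upwards [(A.e i).open_source.mem_nhds a] with y hy using pl_e f hy

theorem tend' (H : Mf A p f) (h : z ∈ ball (0 : ℂ) A.R) (hp : (A.e i).symm z = p) :
    Tendsto (A.pl f i) (𝓝[≠] z) (cobounded ℂ) := H.tend.comp (hp ▸ tend_symm h)

theorem pole (H : Mf A p f) (h : z ∈ ball (0 : ℂ) A.R) (hp : (A.e i).symm z = p) :
    ∀ᶠ q : ℝ × ℂ in 𝓝 0 ×ˢ 𝓝[≠] z,
      A.pl f i q.2 ≠ 0 ∧ ‖A.pl f i q.2‖ ^ (1 + q.1) ≤ ‖fd A f i q.2‖ := by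
  refine P275PL.pole ?_ (H.tend' h hp)
  filter_upwards [(tend_symm h).eventually self_mem_nhdsWithin,
    nhdsWithin_le_nhds (isOpen_ball.mem_nhds h)] with w a b
  exact H.an i w b (hp ▸ a)

variable [T2Space C] [ConnectedSpace C]

/-- the critical points are isolated -/
theorem ndz (H : Mf A p f) (h : z ∈ ball (0 : ℂ) A.R) : ∀ᶠ w in 𝓝[≠] z, fd A f i w ≠ 0 := by
  have hp : ∀ i, ∀ z ∈ ball (0 : ℂ) A.R, (A.e i).symm z = p → ∀ᶠ w in 𝓝[≠] z, fd A f i w ≠ 0 :=
    fun i z h hp => ((H.pole h hp).curry.self_of_nhds).mono fun w a => norm_pos_iff.1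
      ((Real.rpow_pos_of_pos (norm_pos_iff.2 a.1) _).trans_le a.2)
  have tr : ∀ i j, ∀ z ∈ A.O i j, (∀ᶠ w in 𝓝[≠] (A.tr i j z), fd A f j w ≠ 0) →
      ∀ᶠ w in 𝓝[≠] z, fd A f i w ≠ 0 := fun i j z h a => by
    filter_upwards [(tend_tr h).eventually a, nhdsWithin_le_nhds (O_nhds h)] with w b c
    rw [fd_tr c]
    exact mul_ne_zero (d_ne c) b
  obtain ⟨j, a, -⟩ := A.cov p
  refine Fn.conn (P := fun i z => ∀ᶠ w in 𝓝[≠] z, fd A f i w ≠ 0) (fun i j z h => propext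
    ⟨fun b => tr j i _ (tr_mem h) ((tr_inv h).symm ▸ b), tr i j z h⟩) (fun _ _ _ => ev_punct)
    (fun i z h b => ?_) (map_src a) (hp j _ (map_src a) ((A.e j).left_inv a)) i h
  by_cases e : (A.e i).symm z = p
  · exact hp i z h e
  refine (H.an i z h e).deriv.eventually_eq_zero_or_eventually_ne_zero.resolve_left fun c => ?_
  obtain ⟨w, b1, b2⟩ := (b.and_eventually c.eventually_nhds).exists
  obtain ⟨u, c1, c2⟩ := (b1.and (b2.filter_mono nhdsWithin_le_nhds)).exists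
  exact c1 c2

theorem not_const (H : Mf A p f) (h : z ∈ ball (0 : ℂ) A.R) (t : ℂ) :
    ¬∀ᶠ w in 𝓝 z, A.pl f i w - t = 0 := fun a => by
  obtain ⟨u, c1, c2⟩ := ((H.ndz (i := i) h).and
    (a.eventually_nhds.filter_mono nhdsWithin_le_nhds)).exists
  exact c1 ((EventuallyEq.deriv_eq (f := fun _ => t) (c2.mono fun _ => sub_eq_zero.1)).trans
    (deriv_const _ _))

theorem fin_fib (H : Mf A p f) (t : ℂ) : {x | f x = t}.Finite := finite_of (A := A) fun i z h => by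
  by_cases e : (A.e i).symm z = p
  · exact ((H.tend' h e).eventually (eventually_ne_cobounded t)).mono fun _ a _ => a
  · exact (((H.an i z h e).sub analyticAt_const).eventually_eq_zero_or_eventually_ne_zero.resolve_left
      (H.not_const h t)).mono fun _ a _ => sub_ne_zero.1 a

theorem fin_crit (H : Mf A p f) :
    {x | ∃ i, x ∈ (A.e i).source ∧ fd A f i (A.e i x) = 0}.Finite := by
  refine finite_of (A := A) fun i z h => (H.ndz (i := i) h).mono fun w a b ⟨j, c, d⟩ => a ?_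
  rw [fd_tr (j := j) ⟨b, c⟩, At.tr, d, mul_zero]

theorem open_of (H : Mf A p f) {U : Set ℂ} (hU : IsOpen U) : IsOpen {x | x ≠ p ∧ f x ∈ U} :=
  isOpen_iff_mem_nhds.2 fun _ hx => (eventually_ne_nhds hx.1).and
    ((H.cont hx.1).eventually (hU.mem_nhds hx.2))

/-- the function is proper -/
theorem off (H : Mf A p f) {K : Set ℂ} (hK : IsCompact K) (hx : x = p ∨ f x ∉ K) :
    ∀ᶠ y in 𝓝 x, y ≠ p → f y ∉ K := by
  by_cases e : x = p
  · rw [e]
    exact eventually_nhdsWithin_iff.1 (H.tend.eventually hK.isBounded.compl)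
  · exact ((H.cont e).eventually (hK.isClosed.isOpen_compl.mem_nhds (hx.resolve_left e))).mono
      fun _ a _ => a

theorem sep (H : Mf A p f) {t : ℂ} (hx : x ≠ p → f x ≠ t) :
    ∀ᶠ q : ℂ × C in 𝓝 t ×ˢ 𝓝 x, q.2 ≠ p → f q.2 ≠ q.1 := by
  obtain ⟨K, k1, k2, k3⟩ : ∃ K : Set ℂ, IsCompact K ∧ K ∈ 𝓝 t ∧ (x = p ∨ f x ∉ K) := by
    by_cases e : x = p
    · exact ⟨_, isCompact_closedBall t 1, closedBall_mem_nhds _ one_pos, Or.inl e⟩
    obtain ⟨K, k1, k2, k3⟩ := local_compact_nhds (isOpen_ne.mem_nhds (hx e).symm)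
    exact ⟨K, k3, k1, Or.inr fun a => k2 a rfl⟩
  filter_upwards [prod_mem_prod k2 (H.off k1 k3)] with q a b c
  exact a.2 b (c ▸ a.1)

/-- local inverses -/
theorem exists_inv (H : Mf A p f) {U : Set C} (hU : IsOpen U) (hx : x ∈ U) (hp : x ≠ p)
    (hd : ∀ i, x ∈ (A.e i).source → fd A f i (A.e i x) ≠ 0) :
    ∃ φ : OpenPartialHomeomorph C ℂ, x ∈ φ.source ∧ φ.source ⊆ U ∧ EqOn φ f φ.source := by
  obtain ⟨i, a, -⟩ := A.cov x
  have b := ((H.an i _ (map_src a) (by rwa [(A.e i).left_inv a])).hasStrictDerivAt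
    ).hasStrictFDerivAt_equiv (hd i a)
  exact ⟨((A.e i).trans (b.toOpenPartialHomeomorph _)).restrOpen U hU,
    ⟨⟨a, b.mem_toOpenPartialHomeomorph_source⟩, hx⟩, fun _ h => h.2, fun y h => pl_e f h.1.1⟩

end Mf

/-- `X` is the cover of the plane defined by `f` -/
structure Md (A : At C) (p : C) (f : C → ℂ) {S : Type} (X : Cov S) (ι : S → C) : Prop where
  mf : Mf A p f
  inj : Function.Injective ι
  rng : ∀ x, x ∈ range ι ↔ x ≠ p ∧ f x ∉ X.Z
  ψ : ∀ s, X.ψ s = f (ι s)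
  nz : ∀ s i, ι s ∈ (A.e i).source → fd A f i (A.e i (ι s)) ≠ 0
  inv : ∀ s, ∀ᶠ y in 𝓝 (ι s), ι (X.σ s (f y)) = y

theorem exists_bd (Z : Finset ℂ) (N : ℂ → ℕ) (h : ∀ t ∉ Z, ∀ᶠ s in 𝓝 t, N s = N t)
    (h0 : ∀ t ∈ Z, N t = 0) : ∃ e, ∀ t, N t ≤ e := by
  have hc := Z.finite_toSet.countable.isConnected_compl_of_one_lt_rank (by simp)
  obtain ⟨t₀, ht₀⟩ := hc.nonempty
  refine ⟨N t₀, fun t => ?_⟩
  by_cases ht : t ∈ Z
  · rw [h0 t ht]; exact Nat.zero_le _
  · exact (hc.isPreconnected.constant (fun s hs => (continuousAt_const.congr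
      ((h s hs).mono fun _ a => a.symm)).continuousWithinAt) ht ht₀).le

theorem Mf.exists_md [T2Space C] [ConnectedSpace C] (H : Mf A p f) :
    ∃ (S : Type) (X : Cov S) (ι : S → C), Md A p f X ι := by
  classical
  have := A.compactSpace
  let Z : Finset ℂ := H.fin_crit.toFinset.image f
  have hZ : ∀ x, f x ∉ Z → ∀ i, x ∈ (A.e i).source → fd A f i (A.e i x) ≠ 0 := fun x a i b c =>
    a (Finset.mem_image_of_mem f (H.fin_crit.mem_toFinset.2 ⟨i, b, c⟩))
  let S := {x // x ≠ p ∧ f x ∉ Z}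
  choose φ h1 h2 h3 using fun s : S => H.exists_inv
    (H.open_of Z.finite_toSet.isClosed.isOpen_compl) s.2 s.2.1 (hZ s s.2.2)
  let σ : S → ℂ → S := fun s t =>
    if h : t ∈ (φ s).target then ⟨(φ s).symm t, h2 s ((φ s).map_target h)⟩ else s
  have σ1 : ∀ s, ∀ t ∈ (φ s).target, (σ s t).1 = (φ s).symm t := fun s t h =>
    congrArg Subtype.val (dif_pos h)
  have σ2 : ∀ s, ∀ y ∈ (φ s).source, (σ s (f y)).1 = y := fun s y h => by
    rw [← h3 s h, σ1 s _ ((φ s).map_source h), (φ s).left_inv h]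
  have σ3 : ∀ s, ∀ t ∈ (φ s).target, f (σ s t) = t := fun s t h => by
    rw [σ1 s t h, ← h3 s ((φ s).map_target h), (φ s).right_inv h]
  have σ4 : ∀ s, ∀ t ∈ (φ s).target, ContinuousAt (fun u => (σ s u).1) t := fun s t h =>
    ((φ s).continuousAt_symm h).congr
      (eventually_of_mem ((φ s).open_target.mem_nhds h) fun u a => (σ1 s u a).symm)
  have σ5 : ∀ s : S, f s ∈ (φ s).target := fun s => h3 s (h1 s) ▸ (φ s).map_source (h1 s)
  have hf : ∀ t, {s : S | f s = t}.Finite := fun t =>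
    (H.fin_fib t).preimage Subtype.val_injective.injOn
  have bij : ∀ t₀ ∉ Z, ∀ᶠ t in 𝓝 t₀,
      BijOn (fun s => σ s t) (hf t₀).toFinset (hf t).toFinset := fun t₀ ht₀ => by
    simp only [Finite.coe_toFinset]
    have a : ∀ᶠ t in 𝓝 t₀, ∀ s ∈ {s : S | f s = t₀}, t ∈ (φ s).target :=
      (eventually_all_finite (hf t₀)).2 fun s hs => (φ s).open_target.mem_nhds (hs ▸ σ5 s)
    have b : ∀ᶠ t in 𝓝 t₀, ∀ s ∈ {s : S | f s = t₀}, ∀ r ∈ {s : S | f s = t₀},
        σ s t = σ r t → s = r :=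
      (eventually_all_finite (hf t₀)).2 fun s hs => (eventually_all_finite (hf t₀)).2 fun r hr => by
        by_cases e : s = r
        · exact Eventually.of_forall fun _ _ => e
        have c1 : Tendsto (fun u => (σ s u).1) (𝓝 t₀) (𝓝 s.1) := by
          have := (σ4 s _ (σ5 s)).tendsto
          rwa [σ2 s _ (h1 s), hs] at this
        have c2 : Tendsto (fun u => (σ r u).1) (𝓝 t₀) (𝓝 r.1) := by
          have := (σ4 r _ (σ5 r)).tendsto
          rwa [σ2 r _ (h1 r), hr] at this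
        exact ((c1.prodMk_nhds c2).eventually (isClosed_diagonal.isOpen_compl.mem_nhds
          fun a => e (Subtype.ext a))).mono fun u a b => (a (congrArg Subtype.val b)).elim
    have c : ∀ᶠ t in 𝓝 t₀, ∀ y ∈ (⋃ s ∈ {s : S | f s = t₀}, (φ s).source)ᶜ, y ≠ p → f y ≠ t :=
      cpt_ev (isOpen_biUnion fun s _ => (φ s).open_source).isClosed_compl.isCompact fun y hy =>
        H.sep fun e a => hy (mem_biUnion (x := (⟨y, e, a.symm ▸ ht₀⟩ : S)) a (h1 _))
    filter_upwards [a, b, c] with t a b c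
    refine ⟨fun s hs => σ3 s t (a s hs), fun s hs r hr => b s hs r hr, fun r hr => ?_⟩
    obtain ⟨s, hs, d⟩ := mem_iUnion₂.1 (not_not.1 fun d => c r d r.2.1 hr)
    exact ⟨s, hs, Subtype.ext (by rw [← show f r = t from hr]; exact σ2 s _ d)⟩
  refine ⟨S, ⟨Z, fun s => f s, fun t => (hf t).toFinset, σ, fun s t => (hf t).mem_toFinset,
    fun s => s.2.2, fun s => Subtype.ext (σ2 s _ (h1 s)), fun s => ?_, bij,
    exists_bd Z _ (fun t ht => (bij t ht).mono fun u a => (Finset.card_nbij _ a.mapsTo a.injOn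
      a.surjOn).symm) fun t ht => Finset.card_eq_zero.2 (Finset.eq_empty_of_forall_notMem
        fun s hs => s.2.2 ((hf t).mem_toFinset.1 hs ▸ ht))⟩, Subtype.val, H,
    Subtype.val_injective, fun x => by rw [Subtype.range_coe_subtype]; rfl, fun _ => rfl,
    fun s => hZ s s.2.2, fun s => eventually_of_mem ((φ s).open_source.mem_nhds (h1 s)) (σ2 s)⟩
  filter_upwards [(φ s).open_target.mem_nhds (σ5 s)] with t ht
  refine ⟨σ3 s t ht, ?_⟩
  filter_upwards [(φ s).open_target.mem_nhds ht, (σ4 s t ht).eventually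
    ((φ (σ s t)).open_source.mem_nhds (h1 _))] with u a b
  exact Subtype.ext (by rw [← σ2 _ _ b, σ3 s u a])

end Vale.Agent.P275PL
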