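import Vale.Agent.P275PL.Mer

/-!
# P275, block PL: the linear system on the cover of the plane
-/

set_option linter.unusedSectionVars false

open scoped Topology Polynomial
open Set Filter Metric Bornology

noncomputable section

namespace Vale.Agent.P275PL

open Vale.Agent.P275DL Vale.Agent.P275GC Vale.Agent.P275GC.At

variable {C : Type} [TopologicalSpace C] [T2Space C] [ConnectedSpace C] {A : At C} {p : C}
  {f : C → ℂ} {i j : Fin A.N} {z : ℂ} {x : C} {S : Type} {X : Cov S} {ι : S → C} {s : S}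

theorem Mf.near (H : Mf A p f) (t : ℂ) (i : Fin A.N) : ∀ᶠ q : ℝ × ℂ in 𝓝 0 ×ˢ 𝓝 t,
    ∀ z ∈ closedBall (0 : ℂ) 1, (A.e i).symm z ≠ p → A.pl f i z = q.2 →
      ‖q.2 - t‖ ^ (1 - q.1) ≤ ‖fd A f i z‖ := by
  refine cpt_ev (isCompact_closedBall 0 1) fun z hz => ?_
  have h := A.unit_sub hz
  by_cases e : (A.e i).symm z ≠ p → A.pl f i z ≠ t
  · exact (((tendsto_snd.comp tendsto_fst).prodMk ((contAt_symm h).tendsto.comp
      tendsto_snd)).eventually (H.sep e)).mono fun q a b c => (a b c).elim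
  obtain ⟨e1, e2⟩ := Classical.not_imp.1 e
  have := loj ((H.an i z h e1).fun_sub (analyticAt_const (v := t))) (sub_eq_zero.2 (not_not.1 e2))
    (H.not_const h t)
  refine (((tendsto_fst.comp tendsto_fst).prodMk tendsto_snd).eventually this).mono
    fun q a _ c => ?_
  rw [← c, fd, ← deriv_sub_const t]
  exact a

theorem Mf.far (H : Mf A p f) (i : Fin A.N) : ∀ᶠ q : ℝ × ℂ in 𝓝 0 ×ˢ cobounded ℂ,
    ∀ z ∈ closedBall (0 : ℂ) 1, (A.e i).symm z ≠ p → A.pl f i z = q.2 →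
      ‖q.2‖ ^ (1 + q.1) ≤ ‖fd A f i z‖ := by
  refine cpt_ev (isCompact_closedBall 0 1) fun z hz => ?_
  have h := A.unit_sub hz
  by_cases e : (A.e i).symm z = p
  · obtain ⟨P, hP, Q, hQ, a⟩ := eventually_prod_iff.1 (H.pole h e)
    filter_upwards [(tendsto_fst.comp tendsto_fst).eventually hP,
      tendsto_snd.eventually (eventually_nhdsWithin_iff.1 hQ)] with q b c d g
    exact g ▸ (a b (c fun k => d (k ▸ e))).2
  · filter_upwards [(tendsto_snd.comp tendsto_fst).eventually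
      (isBounded_ball (x := A.pl f i z) (r := 1)).compl, tendsto_snd.eventually
      ((H.an i z h e).continuousAt.eventually (ball_mem_nhds _ one_pos))] with q a b _ c
    exact (a (show q.1.2 ∈ _ from c ▸ b)).elim

namespace Md

theorem ne (H : Md A p f X ι) (s : S) : ι s ≠ p := ((H.rng _).1 (mem_range_self s)).1

theorem an (H : Md A p f X ι) (hs : ι s ∈ (A.e i).source) :
    AnalyticAt ℂ (A.pl f i) (A.e i (ι s)) :=
  H.mf.an i _ (map_src hs) (by rw [(A.e i).left_inv hs]; exact H.ne s)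

theorem val (H : Md A p f X ι) (hs : ι s ∈ (A.e i).source) : A.pl f i (A.e i (ι s)) = X.ψ s := by
  rw [pl_e f hs, H.ψ]

theorem ev (H : Md A p f X ι) (hs : ι s ∈ (A.e i).source) :
    ∀ᶠ w in 𝓝 (A.e i (ι s)), ι (X.σ s (A.pl f i w)) = (A.e i).symm w :=
  (contAt_symm (map_src hs)).eventually (by rw [(A.e i).left_inv hs]; exact H.inv s)

theorem fin (H : Md A p f X ι) : (range ι)ᶜ.Finite :=
  ((finite_singleton p).union (X.Z.finite_toSet.biUnion fun t _ => H.mf.fin_fib t)).subset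
    fun x hx => by
      by_cases e : x = p
      · exact Or.inl e
      · exact Or.inr (mem_biUnion (by_contra fun a => hx ((H.rng x).2 ⟨e, a⟩)) rfl)

theorem dense (H : Md A p f X ι) (h : z ∈ ball (0 : ℂ) A.R) :
    ∀ᶠ w in 𝓝[≠] z, (A.e i).symm w ∈ range ι := by
  have a := ((H.fin.subset (sdiff_subset (t := {(A.e i).symm z}))).isClosed.isOpen_compl.mem_nhds
    fun a => a.2 rfl)
  filter_upwards [(tend_symm h).eventually self_mem_nhdsWithin,
    (tend_symm h).eventually (nhdsWithin_le_nhds a)] with w b c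
  exact by_contra fun d => c ⟨d, b⟩

theorem hl (H : Md A p f X ι) {u : Fin A.N → ℂ → ℂ} (hu : A.Fn u)
    (ha : ∀ s i, ι s ∈ (A.e i).source → AnalyticAt ℂ (u i) (A.e i (ι s))) :
    X.Hl fun s => A.gl u (ι s) := fun s => by
  obtain ⟨i, a, -⟩ := A.cov (ι s)
  rw [← H.val a, ← analyticAt_comp_iff_of_deriv_ne_zero (H.an a) (H.nz s i a)]
  refine (ha s i a).congr ?_
  filter_upwards [H.ev a, isOpen_ball.mem_nhds (map_src a)] with w b c
  exact ((congrArg (A.gl u) b).trans (hu.pl_gl c)).symm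

/-- the growth of the inverse of the differential -/
theorem gr (H : Md A p f X ι) : ∃ κ : ℝ, 0 < κ ∧
    (∀ t₀ ∈ X.Z, ∀ᶠ t in 𝓝[≠] t₀, ∀ s ∈ X.fib t, ∀ i, ι s ∈ (A.e i).source →
      ‖A.e i (ι s)‖ ≤ 1 → ‖fd A f i (A.e i (ι s))‖⁻¹ ≤ ‖t - t₀‖ ^ (κ - 1)) ∧
    ∀ᶠ t in cobounded ℂ, ∀ s ∈ X.fib t, ∀ i, ι s ∈ (A.e i).source →
      ‖A.e i (ι s)‖ ≤ 1 → ‖fd A f i (A.e i (ι s))‖⁻¹ ≤ ‖t‖ ^ (-1 - κ) := by
  have a := (X.Z.eventually_all).2 fun t _ => (eventually_all.2 (H.mf.near t)).curry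
  have b := (eventually_all.2 H.mf.far).curry
  obtain ⟨κ, ⟨c, d⟩, e⟩ := (((a.and b).filter_mono (nhdsWithin_le_nhds (s := Ioi 0))).and
    self_mem_nhdsWithin).exists
  have k : ∀ s i, ι s ∈ (A.e i).source → (A.e i).symm (A.e i (ι s)) ≠ p := fun s i h => by
    rw [(A.e i).left_inv h]; exact H.ne s
  refine ⟨κ, e, fun t₀ h => ?_, ?_⟩
  · filter_upwards [nhdsWithin_le_nhds (c t₀ h), self_mem_nhdsWithin] with t a b s hs i h1 h2
    rw [← neg_sub 1 κ, Real.rpow_neg (norm_nonneg _)]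
    exact inv_anti₀ (Real.rpow_pos_of_pos (norm_pos_iff.2 (sub_ne_zero.2 b)) _)
      (a i _ (mem_closedBall_zero_iff.2 h2) (k s i h1) ((H.val h1).trans (Cov.ψ_of hs)))
  · filter_upwards [d, eventually_ne_cobounded 0] with t a b s hs i h1 h2
    rw [← neg_add', Real.rpow_neg (norm_nonneg _)]
    exact inv_anti₀ (Real.rpow_pos_of_pos (norm_pos_iff.2 b) _)
      (a i _ (mem_closedBall_zero_iff.2 h2) (k s i h1) ((H.val h1).trans (Cov.ψ_of hs)))

end Md

variable {V : Type} [AddCommGroup V] [Module ℂ V] {n : ℕ}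

theorem fn_c (D : Sys A V n) (f : C → ℂ) {k : ℕ} (hk : k < n) (v : V) :
    A.Fn fun i z => D.c k v i z / fd A f i z ^ (n - k) := fun i j z h => by
  beta_reduce
  rw [D.sec k hk v i j z h, fd_tr h, smul_eq_mul, mul_pow,
    mul_div_mul_left _ _ (pow_ne_zero _ (d_ne h))]

/-- the coefficients in the coordinate `f` -/
def cf (D : Sys A V n) (f : C → ℂ) (ι : S → C) (k : ℕ) : V →ₗ[ℂ] S → ℂ where
  toFun v s := if k < n then A.gl (fun i z => D.c k v i z / fd A f i z ^ (n - k)) (ι s) else 0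
  map_add' v w := funext fun s => by
    by_cases h : k < n <;> simp [h, At.gl, add_div]
  map_smul' c v := funext fun s => by
    by_cases h : k < n <;> simp [h, At.gl, mul_div_assoc]

theorem cf_pos (D : Sys A V n) {k : ℕ} (hk : k < n) (v : V) :
    cf D f ι k v = fun s => A.gl (fun i z => D.c k v i z / fd A f i z ^ (n - k)) (ι s) :=
  funext fun _ => if_pos hk

theorem Md.exists_sd (H : Md A p f X ι) (D : Sys A V n) (hn : 0 < n) :
    ∃ D' : SD X V n, ∀ k < n, ∀ v s i, ι s ∈ (A.e i).source →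
      D'.c k v s = D.c k v i (A.e i (ι s)) / fd A f i (A.e i (ι s)) ^ (n - k) := by
  have e : ∀ k < n, ∀ v s i, ι s ∈ (A.e i).source →
      cf D f ι k v s = D.c k v i (A.e i (ι s)) / fd A f i (A.e i (ι s)) ^ (n - k) :=
    fun k hk v s i h => by rw [cf_pos D hk]; exact (fn_c D f hk v).gl_src h
  refine ⟨⟨cf D f ι, fun k v => ?_, fun v => ?_, fun v h => D.inj v fun k hk i z hz => ?_, ?_⟩, e⟩
  · by_cases hk : k < n
    · rw [cf_pos D hk]
      exact H.hl (fn_c D f hk v) fun s i h => ((D.hl k v).an (map_src h) i).div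
        ((H.an h).deriv.pow _) (pow_ne_zero _ (H.nz s i h))
    · exact fun s => (analyticAt_const (v := 0)).congr (Eventually.of_forall fun _ =>
        (if_neg hk).symm)
  · funext s
    obtain ⟨i, a, -⟩ := A.cov (ι s)
    rw [e _ (Nat.sub_one_lt hn.ne') v s i a, D.tr0]
    exact zero_div _
  · refine tendsto_nhds_unique_of_eventuallyEq (l := 𝓝[≠] z)
      (((D.hl k v).an hz i).continuousAt.tendsto.mono_left nhdsWithin_le_nhds) tendsto_const_nhds ?_
    filter_upwards [H.dense (i := i) hz, nhdsWithin_le_nhds (isOpen_ball.mem_nhds hz)]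
      with w ⟨s, a⟩ b
    have c : ι s ∈ (A.e i).source := a ▸ map_tgt b
    have d := e k hk v s i c
    rw [h k hk, eq_comm, Pi.zero_apply, div_eq_zero_iff, a, rinv b] at d
    exact d.resolve_right (pow_ne_zero _ (by have := H.nz s i c; rwa [a, rinv b] at this))
  obtain ⟨κ, a, b, c⟩ := H.gr
  refine ⟨κ, a, fun k hk v => ?_⟩
  obtain ⟨M, h0, hM⟩ := Ct.bdd (u := D.c k v) (fun i => (D.hl k v i).continuousOn) A.hR
  have d : ∀ s (W : ℝ), (∀ i, ι s ∈ (A.e i).source → ‖A.e i (ι s)‖ ≤ 1 →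
      ‖fd A f i (A.e i (ι s))‖⁻¹ ≤ W) → ‖cf D f ι k v s‖ ≤ M * W ^ (n - k) := fun s W h => by
    obtain ⟨i, a, b⟩ := A.cov (ι s)
    rw [e k hk v s i a, norm_div, norm_pow, div_eq_mul_inv, ← inv_pow]
    exact mul_le_mul (hM i _ b.le) (pow_le_pow_left₀ (by positivity) (h i a b.le) _)
      (by positivity) h0
  exact ⟨M, fun t₀ h => (b t₀ h).mono fun t g s hs => d s _ (g s hs),
    c.mono fun t g s hs => d s _ (g s hs)⟩

end Vale.Agent.P275PL
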